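import Mathlib
import Vale.Agent.P116.KF.Spec

/-!
# P116, block [7]: honest functions and pairs on subnodes, late levels (helper178)

Tools for the reduction of the adaptation lemma to a local estimate.
-/

open Set Filter Topology Metric Bornology MeasureTheory
open scoped ENNReal

namespace Vale.Agent.P116.KB.H178

open H906 KB KF

variable {K w w' : Set ℂ} {u ρ : ℂ → ℝ}

/-! ### subnodes -/

lemma oc_nonneg (c : Set ℂ) : 0 ≤ oc K w u c := by
  unfold oc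
  split_ifs
  · positivity
  · exact le_rfl

lemma oc_mono (h : w' ⊆ w) (c : Set ℂ) : oc K w' u c ≤ oc K w u c := by
  by_cases h1 : c ⊆ w'
  · rw [oc, oc, if_pos h1, if_pos (h1.trans h)]
  · rw [oc, if_neg h1]
    exact oc_nonneg c

lemma Eo_nonneg : 0 ≤ Eo K w u := tsum_nonneg fun c => oc_nonneg (c : Set ℂ)

lemma summable_mono (h : w' ⊆ w) (hs : Summable fun c : comps K => oc K w u c) :
    Summable fun c : comps K => oc K w' u c :=
  Summable.of_nonneg_of_le (fun c => oc_nonneg (c : Set ℂ)) (fun c => oc_mono h c) hs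

lemma hon_mono (h : w' ⊆ w) (hu : Hon K w u ρ) : Hon K w' u ρ where
  cont := hu.cont
  bdd := hu.bdd
  rc := hu.rc
  rnn := hu.rnn
  maj := hu.maj
  en := (lintegral_mono_set (sdiff_subset_sdiff_left h)).trans_lt hu.en
  sum := summable_mono h hu.sum'

lemma zs_mono {u' : ℂ → ℝ} (h : w' ⊆ w) : Zs K w' u u' ⊆ Zs K w u u' := by
  rintro q ⟨x, hx, hxw, h1⟩
  exact ⟨x, hx, h hxw, h1⟩

lemma isPreconnected_compl_nd (hK : IsCompact K) (n : ℕ) (x : ℂ) : IsPreconnected (nd K n x)ᶜ :=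
  (PBC.full_nd hK n x).isPreconnected_compl (isCompact_nd hK n x).isBounded

lemma nonempty_compl_nd (hK : IsCompact K) (n : ℕ) (x : ℂ) : ((nd K n x)ᶜ).Nonempty := by
  rw [nonempty_compl]
  intro h
  have hc := isCompact_nd hK n x
  rw [h] at hc
  exact noncompact_univ ℂ hc

lemma smon_mono (hK : IsCompact K) {n m : ℕ} {x y : ℂ} (h : nd K m y ⊆ nd K n x)
    (hu : SMon K (nd K n x) u) : SMon K (nd K m y) u :=
  ⟨hu.1.mono_compl h (isPreconnected_compl_nd hK m y) (nonempty_compl_nd hK n x),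
    hu.2.mono_compl h (isPreconnected_compl_nd hK m y) (nonempty_compl_nd hK n x)⟩

/-! ### oscillations at a component -/

lemma iUnion_nd_eq {c : Set ℂ} (hc : c ∈ comps K) {x : ℂ} (hx : x ∈ c) (m : ℕ) :
    (⋃ y ∈ c, nd K m y) = nd K m x := by
  refine Subset.antisymm (iUnion₂_subset fun y hy => ?_) (subset_iUnion₂ (s := fun y _ => nd K m y) x hx)
  have h1 : y ∈ nd K m x := Slow.comp_subset_nd hc hx m hy
  exact (nd_eq h1).subset

lemma bddAbove_img (hb : ∃ B, ∀ z ∈ lev K 0, z ∉ K → |u z| ≤ B) {A : Set ℂ} (hA : A ⊆ lev K 0) :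
    BddAbove (u '' (A \ K)) := by
  obtain ⟨B, hB⟩ := hb
  refine ⟨B, ?_⟩
  rintro _ ⟨z, ⟨hz, hzK⟩, rfl⟩
  exact (abs_le.1 (hB z (hA hz) hzK)).2

lemma bddBelow_img (hb : ∃ B, ∀ z ∈ lev K 0, z ∉ K → |u z| ≤ B) {A : Set ℂ} (hA : A ⊆ lev K 0) :
    BddBelow (u '' (A \ K)) := by
  obtain ⟨B, hB⟩ := hb
  refine ⟨-B, ?_⟩
  rintro _ ⟨z, ⟨hz, hzK⟩, rfl⟩
  exact (abs_le.1 (hB z (hA hz) hzK)).1

lemma oscS_nonneg (hb : ∃ B, ∀ z ∈ lev K 0, z ∉ K → |u z| ≤ B) {A : Set ℂ} (hA : A ⊆ lev K 0) :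
    0 ≤ oscS K u A := by
  unfold oscS
  rcases (A \ K).eq_empty_or_nonempty with h | h
  · simp [h]
  · have h1 := csInf_le_csSup (h.image u) (bddBelow_img hb hA) (bddAbove_img hb hA)
    linarith

lemma oscS_mono (hb : ∃ B, ∀ z ∈ lev K 0, z ∉ K → |u z| ≤ B) {A B : Set ℂ} (hA : (A \ K).Nonempty)
    (hAB : A ⊆ B) (hB : B ⊆ lev K 0) : oscS K u A ≤ oscS K u B := by
  unfold oscS
  have h0 : u '' (A \ K) ⊆ u '' (B \ K) := image_mono (sdiff_subset_sdiff_left hAB)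
  have h1 := csSup_le_csSup (bddAbove_img hb hB) (hA.image u) h0
  have h2 := csInf_le_csInf (bddBelow_img hb hB) (hA.image u) h0
  linarith

/-- late nodes of a component have nearly the oscillation of the component -/
lemma exists_oscS_nd (hK : IsCompact K) (hb : ∃ B, ∀ z ∈ lev K 0, z ∉ K → |u z| ≤ B) {c : Set ℂ}
    (hc : c ∈ comps K) {x : ℂ} (hx : x ∈ c) {ε : ℝ} (hε : 0 < ε) :
    ∃ m₀, ∀ m ≥ m₀, oscS K u (nd K m x) ^ 2 ≤ oscC K u c ^ 2 + ε := by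
  have hxK : x ∈ K := Slow.comps_subset hc hx
  set f : ℕ → ℝ := fun m => oscS K u (nd K m x) with hf
  have hf1 : oscC K u c = ⨅ m, f m := by
    rw [oscC_def]
    congr 1
    funext m
    rw [ndC, iUnion_nd_eq hc hx]
  have hanti : Antitone f := fun m m' h => oscS_mono hb
    (by
      obtain ⟨y, hy, hyK⟩ := exists_mem_nd_notMem hK hxK m'
      exact ⟨y, hy, hyK⟩) (nd_anti h) (G.nd_sub_lev0 m x)
  have hnn : ∀ m, 0 ≤ f m := fun m => oscS_nonneg hb (G.nd_sub_lev0 m x)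
  have hlim : Tendsto f atTop (𝓝 (⨅ m, f m)) :=
    tendsto_atTop_ciInf hanti ⟨0, by rintro _ ⟨m, rfl⟩; exact hnn m⟩
  have h2 : Tendsto (fun m => f m ^ 2) atTop (𝓝 ((⨅ m, f m) ^ 2)) := hlim.pow 2
  rw [← hf1] at h2
  obtain ⟨m₀, hm₀⟩ := eventually_atTop.1 (h2.eventually (gt_mem_nhds (show oscC K u c ^ 2 <
    oscC K u c ^ 2 + ε by linarith)))
  exact ⟨m₀, fun m hm => (hm₀ m hm).le⟩

/-! ### energies of late levels -/

lemma exists_energy (hK : IsCompact K) (hf : Full K) (hw : MeasurableSet w) (hu : Hon K w u ρ)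
    {ε : ℝ≥0∞} (hε : 0 < ε) :
    ∃ m₀, ∀ m ≥ m₀, ∫⁻ z in (w ∩ lev K m) \ K, ENNReal.ofReal (ρ z ^ 2) < ε := by
  set ν : Measure ℂ := volume.withDensity fun z => ENNReal.ofReal (ρ z ^ 2) with hν
  have hm : ∀ m, MeasurableSet ((w ∩ lev K m) \ K) := fun m =>
    (hw.inter (isClosed_lev m).measurableSet).diff hK.isClosed.measurableSet
  have h1 : Tendsto (fun m => ν ((w ∩ lev K m) \ K)) atTop (𝓝 (ν (⋂ m, (w ∩ lev K m) \ K))) := by
    refine tendsto_measure_iInter_atTop (fun m => (hm m).nullMeasurableSet) ?_ ⟨0, ?_⟩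
    · exact fun m m' h => sdiff_subset_sdiff_left (inter_subset_inter_right _ (lev_anti h))
    · rw [hν, withDensity_apply _ (hm 0)]
      exact ((lintegral_mono_set (sdiff_subset_sdiff_left inter_subset_left)).trans_lt hu.en).ne
  have h2 : (⋂ m, (w ∩ lev K m) \ K) = ∅ := by
    rw [eq_empty_iff_forall_notMem]
    intro z hz
    rw [mem_iInter] at hz
    have h3 : z ∈ ⋂ m, lev K m := mem_iInter.2 fun m => (hz m).1.2
    rw [iInter_lev hK hf] at h3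
    exact (hz 0).2 h3
  rw [h2, measure_empty] at h1
  obtain ⟨m₀, hm₀⟩ := eventually_atTop.1 (h1.eventually (gt_mem_nhds hε))
  refine ⟨m₀, fun m hmm => ?_⟩
  have h3 := hm₀ m hmm
  rwa [hν, withDensity_apply _ (hm m)] at h3

/-! ### the reduction -/

/-- the nodes of level `m` in `w` -/
def nw (K w : Set ℂ) (m : ℕ) : Set (Set ℂ) := nd K m '' (K ∩ w)

lemma nw_fin (hK : IsCompact K) (m : ℕ) : (nw K w m).Finite :=
  (finite_nodes hK m).subset (image_mono inter_subset_left)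

lemma nw_disj {m : ℕ} {Q Q' : Set ℂ} (hQ : Q ∈ nw K w m) (hQ' : Q' ∈ nw K w m) (hne : Q ≠ Q') :
    Disjoint Q Q' := by
  obtain ⟨y, hy, rfl⟩ := hQ
  obtain ⟨y', hy', rfl⟩ := hQ'
  rw [disjoint_left]
  intro z hz hz'
  exact hne ((nd_eq hz).symm.trans (nd_eq hz'))

lemma nw_sub {n m : ℕ} {x : ℂ} (h : n ≤ m) {Q : Set ℂ} (hQ : Q ∈ nw K (nd K n x) m) :
    Q ⊆ nd K n x := by
  obtain ⟨y, ⟨_, hy⟩, rfl⟩ := hQ
  exact (nd_anti h).trans (nd_eq hy).subset

open Classical in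
/-- the sum over the nodes of the sums over the components inside them -/
lemma sum_Eo_le {N : Finset (Set ℂ)} (hN : ∀ Q ∈ N, ∀ Q' ∈ N, Q ≠ Q' → Disjoint Q Q')
    (hs : ∀ Q ∈ N, Summable fun c : comps K => oc K Q u c) {G : comps K → Prop}
    {a : comps K → ℝ} (ha : ∀ c, 0 ≤ a c) (hsa : Summable a)
    (h : ∀ Q ∈ N, ∀ c : comps K, (c : Set ℂ) ⊆ Q → ¬ G c → oc K Q u c ≤ a c)
    (hG : ∀ Q ∈ N, ∀ c : comps K, (c : Set ℂ) ⊆ Q → ¬ G c) :
    ∑ Q ∈ N, Eo K Q u ≤ ∑' c, if G c then 0 else a c := by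
  unfold Eo
  rw [← Summable.tsum_finsetSum hs]
  have hsa' : Summable fun c => if G c then 0 else a c := by
    refine Summable.of_nonneg_of_le (fun c => ?_) (fun c => ?_) hsa
    · split_ifs
      · exact le_rfl
      · exact ha c
    · split_ifs
      · exact ha c
      · exact le_rfl
  refine (summable_sum hs).tsum_le_tsum (fun c => ?_) hsa'
  by_cases hc : ∃ Q ∈ N, (c : Set ℂ) ⊆ Q
  · obtain ⟨Q, hQ, hcQ⟩ := hc
    rw [Finset.sum_eq_single Q]
    · rw [if_neg (hG Q hQ c hcQ)]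
      exact h Q hQ c hcQ (hG Q hQ c hcQ)
    · intro Q' hQ' hne
      rw [oc, if_neg]
      intro hcQ'
      obtain ⟨z, hz⟩ := Slow.comps_nonempty c.2
      exact disjoint_left.1 (hN Q' hQ' Q hQ hne) (hcQ' hz) (hcQ hz)
    · exact fun h' => absurd hQ h'
  · rw [Finset.sum_eq_zero]
    · split_ifs
      · exact le_rfl
      · exact ha c
    · intro Q hQ
      rw [oc, if_neg]
      exact fun hcQ => hc ⟨Q, hQ, hcQ⟩

/-- sum of the energies over the nodes -/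
lemma sum_energy_le {N : Finset (Set ℂ)} (hN : ∀ Q ∈ N, ∀ Q' ∈ N, Q ≠ Q' → Disjoint Q Q')
    (hK : IsCompact K) (hc : ∀ Q ∈ N, IsCompact Q) {A : Set ℂ} (hA : ∀ Q ∈ N, Q ⊆ A)
    (hfin : ∫⁻ z in A \ K, ENNReal.ofReal (ρ z ^ 2) ≠ ⊤) :
    ∑ Q ∈ N, (∫⁻ z in Q \ K, ENNReal.ofReal (ρ z ^ 2)).toReal ≤
      (∫⁻ z in A \ K, ENNReal.ofReal (ρ z ^ 2)).toReal := by
  have h1 : ∀ Q ∈ N, ∫⁻ z in Q \ K, ENNReal.ofReal (ρ z ^ 2) ≠ ⊤ := fun Q hQ =>
    ne_top_of_le_ne_top hfin (lintegral_mono_set (sdiff_subset_sdiff_left (hA Q hQ)))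
  rw [← ENNReal.toReal_sum h1]
  refine ENNReal.toReal_mono hfin ?_
  rw [← lintegral_biUnion_finset (μ := volume) (t := fun Q : Set ℂ => Q \ K)]
  · exact lintegral_mono_set (iUnion₂_subset fun Q hQ => sdiff_subset_sdiff_left (hA Q hQ))
  · intro Q hQ Q' hQ' hne
    exact (hN Q hQ Q' hQ' hne).mono sdiff_subset sdiff_subset
  · exact fun Q hQ => (hc Q hQ).isClosed.measurableSet.diff hK.isClosed.measurableSet

end Vale.Agent.P116.KB.H178
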