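import Mathlib
import Vale.Agent.P116.KB.H178.Sub
import Vale.Agent.P116.Cl.H805.Loc

/-!
# P116, block [7]: the adaptation lemma from its local form (helper178, shadow of helper805)
-/

open Set Filter Topology Metric Bornology MeasureTheory
open scoped ENNReal

namespace Vale.Agent.P116.KB.H178

open H906 KB KF

variable {K w : Set ℂ}

lemma exists_energy' (hK : IsCompact K) (hf : Full K) (hw : MeasurableSet w) {f : ℂ → ℝ≥0∞}
    (hfin : ∫⁻ z in w \ K, f z < ⊤) {ε : ℝ≥0∞} (hε : 0 < ε) :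
    ∃ m₀, ∀ m ≥ m₀, ∫⁻ z in (w ∩ lev K m) \ K, f z < ε := by
  set ν : Measure ℂ := volume.withDensity f with hν
  have hm : ∀ m, MeasurableSet ((w ∩ lev K m) \ K) := fun m =>
    (hw.inter (isClosed_lev m).measurableSet).diff hK.isClosed.measurableSet
  have h1 : Tendsto (fun m => ν ((w ∩ lev K m) \ K)) atTop (𝓝 (ν (⋂ m, (w ∩ lev K m) \ K))) := by
    refine tendsto_measure_iInter_atTop (fun m => (hm m).nullMeasurableSet) ?_ ⟨0, ?_⟩
    · exact fun m m' h => sdiff_subset_sdiff_left (inter_subset_inter_right _ (lev_anti h))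
    · rw [hν, withDensity_apply _ (hm 0)]
      exact ((lintegral_mono_set (sdiff_subset_sdiff_left inter_subset_left)).trans_lt hfin).ne
  have h2 : (⋂ m, (w ∩ lev K m) \ K) = ∅ := by
    rw [eq_empty_iff_forall_notMem]
    intro z hz
    rw [mem_iInter] at hz
    have h3 : z ∈ ⋂ m, lev K m := mem_iInter.2 fun m => (hz m).1.2
    rw [iInter_lev hK hf] at h3
    exact (hz 0).2 h3
  rw [h2, measure_empty] at h1
  obtain ⟨m₀, hm₀⟩ := eventually_atTop.1 (h1.eventually (gt_mem_nhds hε))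
  refine ⟨m₀, fun m hmm => ?_⟩
  have h3 := hm₀ m hmm
  rwa [hν, withDensity_apply _ (hm m)] at h3

/-- sum of the energies over the nodes -/
lemma sum_energy_le' {N : Finset (Set ℂ)} (hN : ∀ Q ∈ N, ∀ Q' ∈ N, Q ≠ Q' → Disjoint Q Q')
    (hK : IsCompact K) (hc : ∀ Q ∈ N, IsCompact Q) {A : Set ℂ} (hA : ∀ Q ∈ N, Q ⊆ A)
    {f : ℂ → ℝ≥0∞} (hfin : ∫⁻ z in A \ K, f z ≠ ⊤) :
    ∑ Q ∈ N, (∫⁻ z in Q \ K, f z).toReal ≤ (∫⁻ z in A \ K, f z).toReal := by
  have h1 : ∀ Q ∈ N, ∫⁻ z in Q \ K, f z ≠ ⊤ := fun Q hQ =>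
    ne_top_of_le_ne_top hfin (lintegral_mono_set (sdiff_subset_sdiff_left (hA Q hQ)))
  rw [← ENNReal.toReal_sum h1]
  refine ENNReal.toReal_mono hfin ?_
  rw [← lintegral_biUnion_finset (μ := volume) (t := fun Q : Set ℂ => Q \ K)]
  · exact lintegral_mono_set (iUnion₂_subset fun Q hQ => sdiff_subset_sdiff_left (hA Q hQ))
  · intro Q hQ Q' hQ' hne
    exact (hN Q hQ Q' hQ' hne).mono sdiff_subset sdiff_subset
  · exact fun Q hQ => (hc Q hQ).isClosed.measurableSet.diff hK.isClosed.measurableSet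

open Classical in
/-- the budget of the small components inside `Q` -/
noncomputable def VQ (K : Set ℂ) {ι : Type} [Fintype ι] (u : ι → ℂ → ℝ) (F : Finset (comps K))
    (Q : Set ℂ) : ℝ := ∑' c : comps K, if c ∈ F then 0 else ∑ j, oc K Q (u j) c

section

variable {ι : Type} [Fintype ι] {u : ι → ℂ → ℝ} {F : Finset (comps K)}

lemma summable_VQ {Q : Set ℂ} (hs : ∀ j, Summable fun c : comps K => oc K Q (u j) c) :
    Summable fun c : comps K => (open Classical in if c ∈ F then 0 else ∑ j, oc K Q (u j) c) := by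
  classical
  refine Summable.of_nonneg_of_le (fun c => ?_) (fun c => ?_)
    (summable_sum (s := Finset.univ) fun j _ => hs j)
  · split_ifs
    · exact le_rfl
    · exact Finset.sum_nonneg fun j _ => oc_nonneg (c : Set ℂ)
  · split_ifs
    · exact Finset.sum_nonneg fun j _ => oc_nonneg (c : Set ℂ)
    · exact le_rfl

lemma VQ_nonneg {Q : Set ℂ} : 0 ≤ VQ K u F Q := by
  classical
  refine tsum_nonneg fun c => ?_
  split_ifs
  · exact le_rfl
  · exact Finset.sum_nonneg fun j _ => oc_nonneg (c : Set ℂ)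

lemma sum_le_VQ {Q : Set ℂ} (hs : ∀ j, Summable fun c : comps K => oc K Q (u j) c) (i : ι)
    (J : Finset (Set ℂ)) (hJ : ∀ c ∈ J, c ∈ comps K ∧ c ⊆ Q ∧ c ∉ F.map (Function.Embedding.subtype _)) :
    ∑ c ∈ J, oscC K (u i) c ^ 2 ≤ VQ K u F Q := by
  classical
  have h1 : ∑ c ∈ J, oscC K (u i) c ^ 2 =
      ∑ c ∈ J.subtype (· ∈ comps K), oscC K (u i) (c : Set ℂ) ^ 2 := by
    rw [← Finset.sum_subtype_of_mem (p := (· ∈ comps K)) (fun c => oscC K (u i) c ^ 2)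
      fun c hc => (hJ c hc).1]
  rw [h1, VQ]
  refine le_trans ?_ ((summable_VQ hs).sum_le_tsum (J.subtype (· ∈ comps K)) fun c _ => ?_)
  · refine Finset.sum_le_sum fun c hc => ?_
    have hc' := hJ c (Finset.mem_subtype.1 hc)
    have hcF : c ∉ F := fun h => hc'.2.2 (Finset.mem_map.2 ⟨c, h, rfl⟩)
    rw [if_neg hcF]
    refine le_trans ?_ (Finset.single_le_sum (f := fun j => oc K Q (u j) c)
      (fun j _ => oc_nonneg (c : Set ℂ)) (Finset.mem_univ i))
    rw [oc, if_pos hc'.2.1]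
  · split_ifs
    · exact le_rfl
    · exact Finset.sum_nonneg fun j _ => oc_nonneg (c : Set ℂ)

lemma sum_VQ_le {N : Finset (Set ℂ)} (hN : ∀ Q ∈ N, ∀ Q' ∈ N, Q ≠ Q' → Disjoint Q Q')
    (hw : ∀ Q ∈ N, Q ⊆ w) (hs : ∀ j, Summable fun c : comps K => oc K w (u j) c) :
    ∑ Q ∈ N, VQ K u F Q ≤ VQ K u F w := by
  classical
  unfold VQ
  have hs' : ∀ Q ∈ N, Summable fun c : comps K => if c ∈ F then 0 else ∑ j, oc K Q (u j) c :=
    fun Q hQ => summable_VQ fun j => summable_mono (hw Q hQ) (hs j)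
  rw [← Summable.tsum_finsetSum hs']
  refine (summable_sum hs').tsum_le_tsum (fun c => ?_) (summable_VQ hs)
  by_cases hcF : c ∈ F
  · simp [hcF]
  simp only [if_neg hcF]
  by_cases hc : ∃ Q ∈ N, (c : Set ℂ) ⊆ Q
  · obtain ⟨Q, hQ, hcQ⟩ := hc
    rw [Finset.sum_eq_single Q]
    · exact Finset.sum_le_sum fun j _ => oc_mono (hw Q hQ) (c : Set ℂ)
    · intro Q' hQ' hne
      refine Finset.sum_eq_zero fun j _ => ?_
      rw [oc, if_neg]
      intro hcQ'
      obtain ⟨z, hz⟩ := Slow.comps_nonempty c.2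
      exact disjoint_left.1 (hN Q' hQ' Q hQ hne) (hcQ' hz) (hcQ hz)
    · exact fun h' => absurd hQ h'
  · rw [Finset.sum_eq_zero]
    · exact Finset.sum_nonneg fun j _ => oc_nonneg (c : Set ℂ)
    · intro Q hQ
      refine Finset.sum_eq_zero fun j _ => ?_
      rw [oc, if_neg]
      exact fun hcQ => hc ⟨Q, hQ, hcQ⟩

lemma exists_F (hs : ∀ j, Summable fun c : comps K => oc K w (u j) c) {η : ℝ} (hη : 0 < η) :
    ∃ F : Finset (comps K), VQ K u F w < η := by
  classical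
  set a : comps K → ℝ := fun c => ∑ j, oc K w (u j) c with ha
  have ha0 : ∀ c, 0 ≤ a c := fun c => Finset.sum_nonneg fun j _ => oc_nonneg (c : Set ℂ)
  have hsa : Summable a := summable_sum fun j _ => hs j
  have h1 : Tendsto (fun F : Finset (comps K) => ∑ c ∈ F, a c) atTop (𝓝 (∑' c, a c)) := hsa.hasSum
  obtain ⟨F, hF⟩ := (h1.eventually (lt_mem_nhds (show ∑' c, a c - η < ∑' c, a c by linarith))).exists
  refine ⟨F, ?_⟩
  have h2 : VQ K u F w + ∑ c ∈ F, a c = ∑' c, a c := by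
    have h3 : ∑ c ∈ F, a c = ∑' c, if c ∈ F then a c else 0 := by
      rw [tsum_eq_sum (s := F)]
      · exact Finset.sum_congr rfl fun c hc => (if_pos hc).symm
      · intro c hc
        rw [if_neg hc]
    have h4 : Summable fun c => if c ∈ F then a c else 0 :=
      summable_of_ne_finset_zero (s := F) fun c hc => if_neg hc
    rw [h3, VQ, ← (summable_VQ hs).tsum_add h4]
    refine tsum_congr fun c => ?_
    by_cases hc : c ∈ F
    · simp [hc]
    · simp [hc, ha]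
  linarith

end

/-- **the reduction of [7] to the local form** -/
theorem ad_of_loc (hLoc : Vale.Agent.P116.AD.LocAD) : KF.AD := by
  intro K hK hf n x hx ι _ u hu hmon hcmp δ hδ
  classical
  have := Fintype.ofFinite ι
  choose ρ hρ using hu
  obtain ⟨C, hC0, hC⟩ := hLoc (Fintype.card ι)
  set e : ι ≃ Fin (Fintype.card ι) := Fintype.equivFin ι with he
  set w := nd K n x with hw
  have hwc : IsCompact w := isCompact_nd hK n x
  have hwm : MeasurableSet w := hwc.isClosed.measurableSet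
  have hs : ∀ j, Summable fun c : comps K => oc K w (u j) c := fun j => (hρ j).sum'
  set η : ℝ := δ / (4 * (C + 1)) with hη
  have hη0 : 0 < η := by positivity
  obtain ⟨F, hF⟩ := exists_F (u := u) hs hη0
  -- the level
  have hfin : ∀ i, ∫⁻ z in w \ K, (ENNReal.ofReal (ρ i z ^ 2) + 1) < ⊤ := by
    intro i
    rw [lintegral_add_right _ measurable_const]
    refine ENNReal.add_lt_top.2 ⟨(hρ i).en, ?_⟩
    rw [lintegral_one, Measure.restrict_apply_univ]
    exact (measure_mono sdiff_subset).trans_lt hwc.measure_lt_top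
  set κ : ℝ := η / (Fintype.card ι + 1) with hκ
  have hκ0 : 0 < κ := by positivity
  have hlev : ∀ i, ∃ m₀, ∀ m ≥ m₀,
      ∫⁻ z in (w ∩ lev K m) \ K, (ENNReal.ofReal (ρ i z ^ 2) + 1) < ENNReal.ofReal κ := fun i =>
    exists_energy' hK hf hwm (hfin i) (ENNReal.ofReal_pos.2 hκ0)
  choose m₀ hm₀ using hlev
  set m : ℕ := max n (Finset.univ.sup m₀) with hm
  have hnm : n ≤ m := le_max_left _ _
  have hmi : ∀ i, m₀ i ≤ m := fun i => (Finset.le_sup (Finset.mem_univ i)).trans (le_max_right _ _)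
  -- the nodes
  set N : Finset (Set ℂ) := (nw_fin (w := w) hK m).toFinset with hN
  have hmem : ∀ {Q}, Q ∈ N ↔ Q ∈ nw K w m := fun {Q} => by rw [hN, Set.Finite.mem_toFinset]
  have hNd : ∀ Q ∈ N, ∀ Q' ∈ N, Q ≠ Q' → Disjoint Q Q' := fun Q hQ Q' hQ' =>
    nw_disj (hmem.1 hQ) (hmem.1 hQ')
  have hNw : ∀ Q ∈ N, Q ⊆ w := fun Q hQ => nw_sub hnm (hmem.1 hQ)
  have hNl : ∀ Q ∈ N, Q ⊆ w ∩ lev K m := by
    intro Q hQ
    refine subset_inter (hNw Q hQ) ?_
    obtain ⟨y, -, rfl⟩ := hmem.1 hQ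
    exact nd_subset m y
  have hNc : ∀ Q ∈ N, IsCompact Q := by
    intro Q hQ
    obtain ⟨y, -, rfl⟩ := hmem.1 hQ
    exact isCompact_nd hK m y
  set A : Set ℂ → ℝ := fun Q =>
    ∑ i, (∫⁻ z in Q \ K, (ENNReal.ofReal (ρ i z ^ 2) + 1)).toReal with hA
  set δ' : ℝ := δ / (2 * (N.card + 1)) with hδ'
  have hδ'0 : 0 < δ' := by positivity
  -- structures in the nodes
  have hex : ∀ Q, ∃ S, Q ∈ N → G.NS K Q S ∧ (∀ y ∈ K, y ∈ Q → ∃ P ∈ S, y ∈ P) ∧
      ∀ i, ∑ᶠ P ∈ S, oscS K (u i) P ^ 2 ≤ Eo K Q (u i) + C * (VQ K u F Q + A Q) + δ' := by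
    intro Q
    by_cases hQ : Q ∈ N
    swap
    · exact ⟨∅, fun h => absurd h hQ⟩
    have hQw := hNw Q hQ
    obtain ⟨y, ⟨hyK, hyw⟩, hyQ⟩ := hmem.1 hQ
    subst hyQ
    obtain ⟨S, h1, h2, h3⟩ := hC hK hf hyK (n := m) (u := fun i => u (e.symm i))
      (ρ := fun i => ρ (e.symm i))
      (fun i => hon_mono hQw (hρ _)) (fun i => smon_mono hK hQw (hmon _))
      (fun i j hij => measure_mono_null (zs_mono hQw) (hcmp _ _ fun h => hij (e.symm.injective h)))
      (F.map (Function.Embedding.subtype _)) (V := VQ K u F (nd K m y)) (A := A (nd K m y))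
      (fun i J hJ => sum_le_VQ (fun j => summable_mono hQw (hs j)) _ J hJ)
      (fun i => Finset.single_le_sum
        (f := fun i => (∫⁻ z in nd K m y \ K, (ENNReal.ofReal (ρ i z ^ 2) + 1)).toReal)
        (fun _ _ => ENNReal.toReal_nonneg) (Finset.mem_univ _)) hδ'0
    refine ⟨S, fun _ => ⟨h1, h2, fun i => ?_⟩⟩
    have h4 := h3 (e i)
    simpa using h4
  choose S hS using hex
  have hfinS : ∀ Q ∈ N, (S Q).Finite := fun Q hQ => (hS Q hQ).1.fin
  refine ⟨⋃ Q ∈ N, S Q, ⟨?_, ?_, ?_, ?_⟩, ?_, fun i => ?_⟩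
  · exact N.finite_toSet.biUnion hfinS
  · intro P hP
    obtain ⟨Q, hQ, hPQ⟩ := mem_iUnion₂.1 hP
    exact (hS Q hQ).1.pc P hPQ
  · intro P hP P' hP' hne
    obtain ⟨Q, hQ, hPQ⟩ := mem_iUnion₂.1 hP
    obtain ⟨Q', hQ', hPQ'⟩ := mem_iUnion₂.1 hP'
    by_cases h : Q = Q'
    · subst h
      exact (hS Q hQ).1.disj P hPQ P' hPQ' hne
    · exact (hNd Q hQ Q' hQ' h).mono ((hS Q hQ).1.sub P hPQ) ((hS Q' hQ').1.sub P' hPQ')
  · intro P hP
    obtain ⟨Q, hQ, hPQ⟩ := mem_iUnion₂.1 hP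
    exact ((hS Q hQ).1.sub P hPQ).trans (hNw Q hQ)
  · intro y hy hyw
    have hQ : nd K m y ∈ N := hmem.2 ⟨y, ⟨hy, hyw⟩, rfl⟩
    obtain ⟨P, hP, hyP⟩ := (hS _ hQ).2.1 y hy (mem_nd hy m)
    exact ⟨P, mem_iUnion₂.2 ⟨_, hQ, hP⟩, hyP⟩
  · have h1 : ∑ᶠ P ∈ ⋃ Q ∈ N, S Q, oscS K (u i) P ^ 2 =
        ∑ Q ∈ N, ∑ᶠ P ∈ S Q, oscS K (u i) P ^ 2 := by
      have h2 := finsum_mem_biUnion (I := (N : Set (Set ℂ))) (t := S)
        (f := fun P => oscS K (u i) P ^ 2) ?_ N.finite_toSet hfinS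
      · rw [finsum_mem_coe_finset] at h2
        exact h2
      · intro Q hQ Q' hQ' hne
        change Disjoint (S Q) (S Q')
        rw [disjoint_left]
        intro P hP hP'
        obtain ⟨z, hz⟩ := ((hS Q hQ).1.pc P hP).nontriv.nonempty
        exact disjoint_left.1 (hNd Q hQ Q' hQ' hne) ((hS Q hQ).1.sub P hP hz)
          ((hS Q' hQ').1.sub P hP' hz)
    rw [h1]
    have h2 : ∑ Q ∈ N, ∑ᶠ P ∈ S Q, oscS K (u i) P ^ 2 ≤
        ∑ Q ∈ N, (Eo K Q (u i) + C * (VQ K u F Q + A Q) + δ') :=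
      Finset.sum_le_sum fun Q hQ => (hS Q hQ).2.2 i
    have h3 : ∑ Q ∈ N, (Eo K Q (u i) + C * (VQ K u F Q + A Q) + δ') =
        ∑ Q ∈ N, Eo K Q (u i) + C * (∑ Q ∈ N, VQ K u F Q + ∑ Q ∈ N, A Q) + N.card * δ' := by
      rw [Finset.sum_add_distrib, Finset.sum_add_distrib, ← Finset.mul_sum,
        Finset.sum_add_distrib, Finset.sum_const, nsmul_eq_mul]
    have h4 : ∑ Q ∈ N, Eo K Q (u i) ≤ Eo K w (u i) := by
      have h5 := sum_Eo_le (u := u i) hNd (fun Q hQ => summable_mono (hNw Q hQ) (hs i))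
        (G := fun _ => False) (a := fun c => oc K w (u i) c) (fun c => oc_nonneg (c : Set ℂ))
        (hs i) (fun Q hQ c _ _ => oc_mono (hNw Q hQ) (c : Set ℂ)) (fun _ _ _ _ h => h)
      simpa [Eo] using h5
    have h5 : ∑ Q ∈ N, VQ K u F Q ≤ η := (sum_VQ_le hNd hNw hs).trans hF.le
    have h6 : ∑ Q ∈ N, A Q ≤ η := by
      rw [hA, Finset.sum_comm]
      have h7 : ∀ i, ∑ Q ∈ N, (∫⁻ z in Q \ K, (ENNReal.ofReal (ρ i z ^ 2) + 1)).toReal ≤ κ := by
        intro i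
        have h8 := hm₀ i m (hmi i)
        refine (sum_energy_le' hNd hK hNc hNl h8.ne_top).trans ?_
        exact ENNReal.toReal_le_of_le_ofReal hκ0.le h8.le
      refine (Finset.sum_le_sum fun i _ => h7 i).trans ?_
      rw [Finset.sum_const, Finset.card_univ, nsmul_eq_mul, hκ, mul_div_assoc',
        div_le_iff₀ (by positivity)]
      nlinarith
    have h7 : (N.card : ℝ) * δ' ≤ δ / 2 := by
      rw [hδ', mul_div_assoc', div_le_div_iff₀ (by positivity) (by positivity)]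
      nlinarith
    have h8 : C * (η + η) ≤ δ / 2 := by
      rw [hη, ← two_mul, mul_div_assoc', mul_div_assoc', div_le_div_iff₀ (by positivity) (by positivity)]
      nlinarith
    have h9 : C * (∑ Q ∈ N, VQ K u F Q + ∑ Q ∈ N, A Q) ≤ C * (η + η) :=
      mul_le_mul_of_nonneg_left (add_le_add h5 h6) hC0
    linarith

end Vale.Agent.P116.KB.H178
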